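import Vale.Agent.P307.R2.H541.Ext

/-!
Transfer of the existence of atomic models over boundaries between two homogeneous structures.
-/

universe u

open Set Cardinal Function
open scoped Classical

namespace Vale.Agent.P307.R2.H541

namespace PG

variable {C₁ C₂ : Type u}

/-- `f : N₁ → N₂` is a bijection with inverse `f'` which preserves models and the conjugacy of small
tuples. -/
structure Match (M₁ : PG C₁) (M₂ : PG C₂) (N₁ : Set C₁) (N₂ : Set C₂) (f : C₁ → C₂)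
    (f' : C₂ → C₁) : Prop where
  χ : M₁.χ = M₂.χ
  mem₁ : N₁ ∈ M₁.S
  mem₂ : N₂ ∈ M₂.S
  map₁ : ∀ x ∈ N₁, f x ∈ N₂
  map₂ : ∀ x ∈ N₂, f' x ∈ N₁
  inv₁ : ∀ x ∈ N₁, f' (f x) = x
  inv₂ : ∀ x ∈ N₂, f (f' x) = x
  S₁ : ∀ D ⊆ N₁, D ∈ M₁.S → f '' D ∈ M₂.S
  S₂ : ∀ D ⊆ N₂, D ∈ M₂.S → f' '' D ∈ M₁.S
  conj₁ : ∀ D ⊆ N₁, #D < M₁.χ → ∀ g ∈ M₁.G, (∀ x ∈ D, g x ∈ N₁) →
    ∃ h ∈ M₂.G, ∀ x ∈ D, h (f x) = f (g x)
  conj₂ : ∀ D ⊆ N₂, #D < M₂.χ → ∀ g ∈ M₂.G, (∀ x ∈ D, g x ∈ N₂) →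
    ∃ h ∈ M₁.G, ∀ x ∈ D, h (f' x) = f' (g x)

namespace Match

variable {M₁ : PG C₁} {M₂ : PG C₂} {N₁ : Set C₁} {N₂ : Set C₂} {f : C₁ → C₂} {f' : C₂ → C₁}

theorem symm (h : Match M₁ M₂ N₁ N₂ f f') : Match M₂ M₁ N₂ N₁ f' f :=
  ⟨h.χ.symm, h.mem₂, h.mem₁, h.map₂, h.map₁, h.inv₂, h.inv₁, h.S₂, h.S₁, h.conj₂, h.conj₁⟩

theorem image_image (h : Match M₁ M₂ N₁ N₂ f f') {D : Set C₁} (hD : D ⊆ N₁) :
    f' '' (f '' D) = D := by
  ext x
  constructor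
  · rintro ⟨_, ⟨y, hy, rfl⟩, rfl⟩
    rwa [h.inv₁ y (hD hy)]
  · intro hx
    exact ⟨f x, ⟨x, hx, rfl⟩, h.inv₁ x (hD hx)⟩

theorem image_sub (h : Match M₁ M₂ N₁ N₂ f f') {D : Set C₁} (hD : D ⊆ N₁) : f '' D ⊆ N₂ := by
  rintro _ ⟨x, hx, rfl⟩
  exact h.map₁ x (hD hx)

/-- The preimage of a subset of an image. -/
theorem exists_pre (h : Match M₁ M₂ N₁ N₂ f f') {D : Set C₁} (hD : D ⊆ N₁) {E : Set C₂}
    (hE : E ⊆ f '' D) : f' '' E ⊆ D ∧ f '' (f' '' E) = E ∧ #(f' '' E) ≤ #E := by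
  have hEN : E ⊆ N₂ := hE.trans (h.image_sub hD)
  refine ⟨?_, h.symm.image_image hEN, mk_image_le⟩
  rintro _ ⟨y, hy, rfl⟩
  obtain ⟨x, hx, rfl⟩ := hE hy
  rwa [h.inv₁ x (hD hx)]

theorem ind (h : Match M₁ M₂ N₁ N₂ f f') {P A B : Set C₁} (hP : P ⊆ N₁) (hA : A ⊆ N₁)
    (hB : B ⊆ N₁) (hI : M₁.Ind P A B) : M₂.Ind (f '' P) (f '' A) (f '' B) := by
  intro D hD hDc E hE hEc
  rw [← image_union] at hD
  obtain ⟨h1, h2, h3⟩ := h.exists_pre (union_subset hP hA) hD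
  obtain ⟨h4, h5, h6⟩ := h.exists_pre hB hE
  have hχ := h.χ
  obtain ⟨g, hg, h7, h8⟩ := hI (f' '' D) h1 (h3.trans_lt (hDc.trans_eq hχ.symm)) (f' '' E) h4
    (h6.trans_lt (hEc.trans_eq hχ.symm))
  have hDN : f' '' D ⊆ N₁ := h1.trans (union_subset hP hA)
  obtain ⟨k, hk, h9⟩ := h.conj₁ (f' '' D ∪ f' '' E) (union_subset hDN (h4.trans hB))
    (small_union (h3.trans_lt (hDc.trans_eq hχ.symm)) (h6.trans_lt (hEc.trans_eq hχ.symm))) g hg
    (by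
      rintro x (hx | hx)
      · rw [h7 x hx]
        exact hDN hx
      · exact hP (h8 x hx))
  have hD2 : D ⊆ N₂ := hD.trans (h.image_sub (union_subset hP hA))
  have hE2 : E ⊆ N₂ := hE.trans (h.image_sub hB)
  refine ⟨k, hk, fun a ha => ?_, fun b hb => ?_⟩
  · have h10 := h9 (f' a) (Or.inl ⟨a, ha, rfl⟩)
    rw [h7 _ ⟨a, ha, rfl⟩, h.inv₂ a (hD2 ha)] at h10
    exact h10
  · have h10 := h9 (f' b) (Or.inr ⟨b, hb, rfl⟩)
    rw [h.inv₂ b (hE2 hb)] at h10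
    rw [h10]
    exact mem_image_of_mem f (h8 _ ⟨b, hb, rfl⟩)

theorem isol (h : Match M₁ M₂ N₁ N₂ f f') {B X E : Set C₁} (hB : B ⊆ N₁) (hX : X ⊆ N₁)
    (hE : E ⊆ N₁) (hBc : #B < M₁.χ) (hEc : #E < M₁.χ) (hI : M₁.Isol B X E) :
    M₂.Isol (f '' B) (f '' X) (f '' E) := by
  have hχ := h.χ
  intro g hg hgB A hA hAc
  obtain ⟨h1, h2, h3⟩ := h.exists_pre hX hA
  have hA2 : A ⊆ N₂ := hA.trans (h.image_sub hX)
  have hBc2 : #(f '' B) < M₂.χ := mk_image_le.trans_lt (hBc.trans_eq hχ)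
  have hEc2 : #(f '' E) < M₂.χ := mk_image_le.trans_lt (hEc.trans_eq hχ)
  obtain ⟨k, hk, hk1, hk2⟩ := M₂.sat h.mem₂ (A := f '' B ∪ A) (B := g '' (f '' E))
    (union_subset (h.image_sub hB) hA2) (small_union hBc2 hAc) (small_image g hEc2)
  have hkgB : ∀ b ∈ f '' B, (k * g) b = b := fun b hb => by
    rw [Equiv.Perm.mul_apply, hgB b hb, hk1 b (Or.inl hb)]
  have hkgE : ∀ e ∈ f '' E, (k * g) e ∈ N₂ := fun e he => hk2 _ (mem_image_of_mem g he)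
  obtain ⟨g₁, hg₁, h4⟩ := h.conj₂ (f '' B ∪ f '' E) (union_subset (h.image_sub hB)
    (h.image_sub hE)) (small_union hBc2 hEc2) (k * g) (M₂.G.mul_mem hk hg) (by
      rintro x (hx | hx)
      · rw [hkgB x hx]
        exact h.image_sub hB hx
      · exact hkgE x hx)
  have hg₁B : ∀ b ∈ B, g₁ b = b := fun b hb => by
    have h5 := h4 (f b) (Or.inl (mem_image_of_mem f hb))
    rw [hkgB _ (mem_image_of_mem f hb), h.inv₁ b (hB hb)] at h5
    exact h5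
  have hAc1 : #(f' '' A) < M₁.χ := h3.trans_lt (hAc.trans_eq hχ.symm)
  obtain ⟨h₁, hh₁, h5, h6⟩ := hI g₁ hg₁ hg₁B (f' '' A) h1 hAc1
  have h7 : ∀ e ∈ E, h₁ e = f' ((k * g) (f e)) := fun e he => by
    rw [h6 e he]
    have h8 := h4 (f e) (Or.inr (mem_image_of_mem f he))
    rw [h.inv₁ e (hE he)] at h8
    exact h8
  obtain ⟨k₂, hk₂, h8⟩ := h.conj₁ (f' '' A ∪ E) (union_subset (h1.trans hX) hE)
    (small_union hAc1 hEc) h₁ hh₁ (by
      rintro x (hx | hx)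
      · rw [h5 x hx]
        exact hX (h1 hx)
      · rw [h7 x hx]
        exact h.map₂ _ (hkgE _ (mem_image_of_mem f hx)))
  refine ⟨k⁻¹ * k₂, M₂.G.mul_mem (M₂.G.inv_mem hk) hk₂, fun a ha => ?_, ?_⟩
  · have h9 := h8 (f' a) (Or.inl ⟨a, ha, rfl⟩)
    rw [h5 _ ⟨a, ha, rfl⟩, h.inv₂ a (hA2 ha)] at h9
    rw [Equiv.Perm.mul_apply, h9]
    exact fix_inv (hk1 a (Or.inr ha))
  · rintro _ ⟨e, he, rfl⟩
    have h9 := h8 e (Or.inr he)
    rw [h7 e he, h.inv₂ _ (hkgE _ (mem_image_of_mem f he))] at h9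
    rw [Equiv.Perm.mul_apply, h9, Equiv.Perm.mul_apply, inv_ap]

theorem atomic (h : Match M₁ M₂ N₁ N₂ f f') {N X : Set C₁} (hN : N ⊆ N₁)
    (hA : M₁.Atomic N X) : M₂.Atomic (f '' N) (f '' X) := by
  have hχ := h.χ
  refine ⟨h.S₁ N hN hA.mem, image_mono hA.sub, fun E hE hEc => ?_⟩
  obtain ⟨h1, h2, h3⟩ := h.exists_pre hN hE
  have hEc1 : #(f' '' E) < M₁.χ := h3.trans_lt (hEc.trans_eq hχ.symm)
  obtain ⟨B, hB, hBc, hI⟩ := hA.iso (f' '' E) h1 hEc1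
  have hX : X ⊆ N₁ := hA.sub.trans hN
  have h4 := h.isol (hB.trans hX) hX (h1.trans hN) hBc hEc1 hI
  rw [h2] at h4
  exact ⟨f '' B, image_mono hB, mk_image_le.trans_lt (hBc.trans_eq hχ), h4⟩

/-! ### Systems -/

/-- The family of images. -/
def push (f : C₁ → C₂) (f' : C₂ → C₁) (A : Finset C₁ → Set C₁) : Finset C₂ → Set C₂ :=
  fun t => f '' A (t.image f')

theorem image_image_fin (h : Match M₁ M₂ N₁ N₂ f f') {t : Finset C₁} (ht : ∀ x ∈ t, x ∈ N₁) :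
    (t.image f).image f' = t := by
  rw [Finset.image_image]
  have : ∀ x ∈ t, (f' ∘ f) x = id x := fun x hx => h.inv₁ x (ht x hx)
  rw [Finset.image_congr this, Finset.image_id]

theorem push_image (h : Match M₁ M₂ N₁ N₂ f f') {A : Finset C₁ → Set C₁} {t : Finset C₁}
    (ht : ∀ x ∈ t, x ∈ N₁) : push f f' A (t.image f) = f '' A t := by
  rw [push, h.image_image_fin ht]

theorem image_sub_fin (h : Match M₁ M₂ N₁ N₂ f f') {s : Finset C₁} (hs : ∀ x ∈ s, x ∈ N₁)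
    {t : Finset C₂} (ht : t ⊆ s.image f) : t.image f' ⊆ s ∧ (t.image f').image f = t := by
  have h1 : ∀ y ∈ t, y ∈ N₂ := fun y hy => by
    obtain ⟨x, hx, rfl⟩ := Finset.mem_image.1 (ht hy)
    exact h.map₁ x (hs x hx)
  refine ⟨?_, h.symm.image_image_fin h1⟩
  rw [← h.image_image_fin hs]
  exact Finset.image_subset_image ht

theorem bd_push (h : Match M₁ M₂ N₁ N₂ f f') {A : Finset C₁ → Set C₁} {t : Finset C₁}
    (ht : ∀ x ∈ t, x ∈ N₁) : bd (push f f' A) (t.image f) = f '' bd A t := by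
  ext c
  constructor
  · rintro (hc | ⟨r, hr, hc⟩)
    · obtain ⟨x, hx, rfl⟩ := Finset.mem_image.1 hc
      exact ⟨x, Or.inl hx, rfl⟩
    · obtain ⟨x, hx, rfl⟩ := hc
      refine ⟨x, Or.inr ⟨r.image f', ?_, hx⟩, rfl⟩
      obtain ⟨h1, h2⟩ := h.image_sub_fin ht hr.1
      refine lt_of_le_of_ne h1 ?_
      rintro h3
      rw [h3] at h2
      exact hr.ne h2.symm
  · rintro ⟨x, hx | ⟨r, hr, hx⟩, rfl⟩
    · exact Or.inl (Finset.mem_image_of_mem f hx)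
    · refine Or.inr ⟨r.image f, ?_, ?_⟩
      · refine lt_of_le_of_ne (Finset.image_subset_image hr.1) fun h1 => ?_
        have h2 := congrArg (Finset.image f') h1
        rw [h.image_image_fin ht, h.image_image_fin fun x hx => ht x (hr.1 hx)] at h2
        exact hr.ne h2
      · rw [h.push_image fun x hx => ht x (hr.1 hx)]
        exact mem_image_of_mem f hx

theorem psys (h : Match M₁ M₂ N₁ N₂ f f') {A : Finset C₁ → Set C₁} {s : Finset C₁}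
    (hs : ∀ x ∈ s, x ∈ N₁) (hAN : ∀ t ⊆ s, A t ⊆ N₁) (hA : M₁.PSys A s) :
    M₂.PSys (push f f' A) (s.image f) := by
  have h0 : push f f' A ∅ = f '' A ∅ := by rw [push, Finset.image_empty]
  refine ⟨?_, fun x hx => ?_, fun t ht h1 => ?_⟩
  · rw [h0]
    exact h.S₁ _ (hAN ∅ (Finset.empty_subset s)) hA.memS
  · obtain ⟨x, hx', rfl⟩ := Finset.mem_image.1 hx
    clear hx
    rename' hx' => hx
    have h1 : (s.image f).erase (f x) = (s.erase x).image f := by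
      ext y
      rw [Finset.mem_erase, Finset.mem_image, Finset.mem_image]
      constructor
      · rintro ⟨h1, z, hz, rfl⟩
        exact ⟨z, Finset.mem_erase.2 ⟨fun h2 => h1 (by rw [h2]), hz⟩, rfl⟩
      · rintro ⟨z, hz, rfl⟩
        rw [Finset.mem_erase] at hz
        refine ⟨fun h2 => hz.1 ?_, z, hz.2, rfl⟩
        rw [← h.inv₁ z (hs z hz.2), h2, h.inv₁ x (hs x hx)]
    rw [h0, h1, h.push_image fun y hy => hs y (Finset.mem_of_mem_erase hy)]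
    have h2 := h.ind (hAN ∅ (Finset.empty_subset s)) (singleton_subset_iff.2 (hs x hx))
      (hAN _ (Finset.erase_subset x s)) (hA.ind x hx)
    rwa [image_singleton] at h2
  · obtain ⟨h2, h3⟩ := h.image_sub_fin hs ht
    have h4 : (t.image f').Nonempty := h1.image f'
    have h5 := h.atomic (hAN _ h2) (hA.atomic _ h2 h4)
    have h6 := h.bd_push (A := A) fun x hx => hs x (h2 hx)
    rw [h3] at h6
    rwa [← h6] at h5

end Match

/-- Existence of atomic models over the boundaries of systems of dimension `n`. -/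
def DIn (M : PG C₁) (n : ℕ) : Prop := ∀ (A : Finset C₁ → Set C₁) (s : Finset C₁), s.Nonempty →
  s.card = n → (∀ t, t ⊂ s → M.PSys A t) → (∀ x ∈ s, M.Ind (A ∅) {x} (A (s.erase x))) →
    ∃ N, M.Atomic N (bd A s)

theorem di_iff (M : PG C₁) : M.DI ↔ ∀ n, M.DIn n :=
  ⟨fun h _ A s h1 _ h2 h3 => h A s h1 h2 h3, fun h A s h1 h2 h3 => h _ A s h1 rfl h2 h3⟩

/-- Transfer. -/
theorem DIn.of_match {M₁ : PG C₁} {M₂ : PG C₂} {n : ℕ}
    (hls : ∀ X : Set C₁, #X ≤ M₁.χ → ∃ N ∈ M₁.S, X ⊆ N)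
    (hM : ∀ N₁ ∈ M₁.S, ∃ (N₂ : Set C₂) (f : C₁ → C₂) (f' : C₂ → C₁), Match M₁ M₂ N₁ N₂ f f')
    (hD : M₂.DIn n) : M₁.DIn n := by
  intro A s hne hn hA hI
  have hχ := M₁.hχ
  -- a model with all the faces
  have hAS : ∀ t, t ⊂ s → A t ∈ M₁.S := fun t ht => (hA t ht).mem (Finset.Subset.refl t)
  have hc : #(bd A s ∪ (s : Set C₁) : Set C₁) ≤ M₁.χ := by
    have h1 : bd A s ∪ (s : Set C₁) ⊆
        (s : Set C₁) ∪ ⋃ t : {t : Finset C₁ // t ⊂ s}, A t.1 := by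
      rintro c ((hc | ⟨r, hr, hc⟩) | hc)
      · exact Or.inl hc
      · exact Or.inr (mem_iUnion.2 ⟨⟨r, hr⟩, hc⟩)
      · exact Or.inl hc
    have h2 : Finite {t : Finset C₁ // t ⊂ s} := by
      refine Finite.of_injective (fun t => (⟨t.1, Finset.mem_powerset.2 t.2.1⟩ :
        {t : Finset C₁ // t ∈ s.powerset})) fun t t' h => ?_
      exact Subtype.ext (congrArg (fun z => (z.1 : Finset C₁)) h)
    refine (mk_le_mk_of_subset h1).trans ((mk_union_le _ _).trans (add_le_of_le hχ ?_ ?_))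
    · exact (lt_aleph0_iff_set_finite.2 s.finite_toSet).le.trans hχ
    · refine (mk_iUnion_le _).trans ((mul_le_of_le hχ ?_ ?_))
      · exact (lt_aleph0_of_finite _).le.trans hχ
      · exact ciSup_le' fun t => (M₁.S_card (hAS t.1 t.2)).le
  obtain ⟨N₁, hN₁, hN₁s⟩ := hls _ hc
  obtain ⟨N₂, f, f', h⟩ := hM N₁ hN₁
  have hs : ∀ x ∈ s, x ∈ N₁ := fun x hx => hN₁s (Or.inr hx)
  have hAN : ∀ t, t ⊂ s → A t ⊆ N₁ := fun t ht c hc => hN₁s (Or.inl (Or.inr ⟨t, ht, hc⟩))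
  have hbd : bd A s ⊆ N₁ := fun c hc => hN₁s (Or.inl hc)
  have hcard : (s.image f).card = s.card := Finset.card_image_of_injOn fun x hx y hy hxy => by
    rw [← h.inv₁ x (hs x hx), ← h.inv₁ y (hs y hy)]
    exact congrArg f' hxy
  have h0 : Match.push f f' A ∅ = f '' A ∅ := by rw [Match.push, Finset.image_empty]
  have hpos : (∅ : Finset C₁) ⊂ s := Finset.empty_ssubset.2 hne
  obtain ⟨N, hN⟩ := hD (Match.push f f' A) (s.image f) (hne.image f) (hcard.trans hn)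
    (fun t ht => by
      obtain ⟨h1, h2⟩ := h.image_sub_fin hs ht.1
      have h3 : t.image f' ⊂ s := by
        refine lt_of_le_of_ne h1 fun h4 => ?_
        rw [h4] at h2
        exact ht.ne h2.symm
      have h4 := h.psys (A := A) (s := t.image f') (fun x hx => hs x (h1 hx))
        (fun r hr => hAN r (lt_of_le_of_lt hr h3)) (hA _ h3)
      rwa [h2] at h4) (fun x hx => by
      obtain ⟨x, hx', rfl⟩ := Finset.mem_image.1 hx
      clear hx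
      rename' hx' => hx
      have h1 : (s.image f).erase (f x) = (s.erase x).image f := by
        ext y
        rw [Finset.mem_erase, Finset.mem_image, Finset.mem_image]
        constructor
        · rintro ⟨h1, z, hz, rfl⟩
          exact ⟨z, Finset.mem_erase.2 ⟨fun h2 => h1 (by rw [h2]), hz⟩, rfl⟩
        · rintro ⟨z, hz, rfl⟩
          rw [Finset.mem_erase] at hz
          refine ⟨fun h2 => hz.1 ?_, z, hz.2, rfl⟩
          rw [← h.inv₁ z (hs z hz.2), h2, h.inv₁ x (hs x hx)]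
      rw [h0, h1, h.push_image fun y hy => hs y (Finset.mem_of_mem_erase hy)]
      have h2 := h.ind (hAN ∅ hpos) (singleton_subset_iff.2 (hs x hx))
        (hAN _ (Finset.erase_ssubset hx)) (hI x hx)
      rwa [image_singleton] at h2)
  rw [h.bd_push hs] at hN
  have hLE : M₂.LE id (f '' bd A s) := fun _ _ _ => ⟨1, M₂.G.one_mem, fun _ _ => rfl⟩
  obtain ⟨k, hk, hk1, hk2⟩ := hN.exists_embed hLE h.mem₂ (fun x hx => h.image_sub hbd hx)
  have hkN : k '' N ⊆ N₂ := by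
    rintro _ ⟨a, ha, rfl⟩
    exact hk2 a ha
  have h1 := h.symm.atomic hkN (hN.image hk hk1)
  rw [h.image_image hbd] at h1
  exact ⟨_, h1⟩

theorem DI.of_match {M₁ : PG C₁} {M₂ : PG C₂}
    (hls : ∀ X : Set C₁, #X ≤ M₁.χ → ∃ N ∈ M₁.S, X ⊆ N)
    (hM : ∀ N₁ ∈ M₁.S, ∃ (N₂ : Set C₂) (f : C₁ → C₂) (f' : C₂ → C₁), Match M₁ M₂ N₁ N₂ f f')
    (hD : M₂.DI) : M₁.DI :=
  (di_iff M₁).2 fun n => DIn.of_match hls hM ((di_iff M₂).1 hD n)

end PG

end Vale.Agent.P307.R2.H541
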