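import Vale.Agent.P307.R2.H73.Xfer
import Vale.Agent.P307.R2.H541.Calc
import Vale.Agent.P307.R2.H804.Xfer

/-!
The existence of atomic models over boundaries does not depend on the saturated member.
-/

set_option linter.unusedSectionVars false

universe u

open FirstOrder Cardinal Set

namespace Vale.Agent.P307.R2.H541

open Vale.Agent.P307 Vale.Agent.P307.H304 Vale.Agent.P307.R2.H287 Vale.Agent.P307.R2.H1
  Vale.Agent.P307.R2.H971 Vale.Agent.P307.R2.H804 Language.Structure Language.Substructure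

variable {L : Language.{u, u}} {K : AEC L} {ℓ θ : Cardinal.{u}}
  {κf α : Cardinal.{u} → Cardinal.{u}} {C₁ C₂ : Type u} [L.Structure C₁] [L.Structure C₂]

/-- Saturated members of the same size are isomorphic. -/
theorem exists_sat_equiv (h₀ : BasePt K ℓ κf α θ) (hK : K.IsLS ℓ) (hCm₁ : K.mem C₁)
    (hs₁ : Sat K θ C₁) (hCc₁ : #C₁ = Order.succ θ) (hCm₂ : K.mem C₂) (hs₂ : Sat K θ C₂)
    (hCc₂ : #C₂ = Order.succ θ) : Nonempty (C₁ ≃[L] C₂) := by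
  obtain ⟨A, hA, -, hAc⟩ := exists_sub_card hK h₀.pt.lt.le hCm₁ ((Order.le_succ θ).trans hCc₁.ge) ∅
    (by simp)
  obtain ⟨A', hA', -, hAc'⟩ := exists_sub_card hK h₀.pt.lt.le hCm₂
    ((Order.le_succ θ).trans hCc₂.ge) ∅ (by simp)
  obtain ⟨e⟩ := h₀.pt.cat.2 A A' (K.mem_of_le _ hA).1 (K.mem_of_le _ hA').1 hAc hAc'
  obtain ⟨g, -⟩ := hs₁.exists_iso hK h₀.pt.lt.le hs₂ hCc₁ hCc₂ A.subtype
    (A'.subtype.comp e.toEmbedding) (AEC.emb_subtype.2 hA)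
    (AEC.Emb.comp (AEC.emb_subtype.2 hA') (AEC.Emb.of_equiv e (K.mem_of_le _ hA).1)) hAc
  exact ⟨g⟩

/-- `DI` for one saturated member of size `θ⁺` gives `DI` for all of them. -/
theorem pg_din_congr (h₀ : BasePt K ℓ κf α θ) (hK : K.IsLS ℓ)
    (hunb : ∀ ν, ν < κf ν ∧ K.CategoricalIn (κf ν)) (hst : Stab K ℓ α (H287.thr κf))
    (hCm₁ : K.mem C₁) (hs₁ : Sat K θ C₁) (hCc₁ : #C₁ = Order.succ θ) (hCm₂ : K.mem C₂)
    (hs₂ : Sat K θ C₂) (hCc₂ : #C₂ = Order.succ θ) {n : ℕ}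
    (h : (pg h₀ hK hunb hst hCm₂ hs₂ hCc₂).DIn n) :
    (pg h₀ hK hunb hst hCm₁ hs₁ hCc₁).DIn n := by
  obtain ⟨e⟩ := exists_sat_equiv h₀ hK hCm₁ hs₁ hCc₁ hCm₂ hs₂ hCc₂
  refine PG.DIn.of_match (fun X hX => ?_) (fun N₁ hN₁ => ?_) h
  · obtain ⟨N, h1, h2, h3⟩ := exists_sub_card hK h₀.pt.lt.le hCm₁
      ((Order.le_succ θ).trans hCc₁.ge) X hX
    exact ⟨N, ⟨N, h1, h3, rfl⟩, h2⟩
  · obtain ⟨D, hD, hDc, rfl⟩ := hN₁
    have hS : ∀ {A B : Type u} [L.Structure A] [L.Structure B] (k : A ≃[L] B) (D : L.Substructure A),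
        K.le D → #D = θ → ∃ E : L.Substructure B, K.le E ∧ #E = θ ∧ (E : Set B) = k '' D := by
      intro A B _ _ k D hD hDc
      exact ⟨D.map k.toHom, K.le_iso k D hD, (mk_image_eq k.injective).trans hDc, rfl⟩
    refine ⟨e '' D, e, e.symm, ⟨rfl, ⟨D, hD, hDc, rfl⟩, ?_, fun x hx => ⟨x, hx, rfl⟩, ?_,
      fun x _ => e.symm_apply_apply x, fun x _ => e.apply_symm_apply x, ?_, ?_, ?_, ?_⟩⟩
    · exact hS e D hD hDc
    · rintro _ ⟨x, hx, rfl⟩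
      rw [e.symm_apply_apply]
      exact hx
    · rintro _ - ⟨E, h1, h2, rfl⟩
      exact hS e E h1 h2
    · rintro _ - ⟨E, h1, h2, rfl⟩
      exact hS e.symm E h1 h2
    · rintro X - - g ⟨k, hk⟩ -
      refine ⟨_, mem_autG ((e.comp k).comp e.symm), fun x _ => ?_⟩
      change e (k (e.symm (e x))) = e (g x)
      rw [e.symm_apply_apply, hk]
    · rintro X - - g ⟨k, hk⟩ -
      refine ⟨_, mem_autG ((e.symm.comp k).comp e), fun x _ => ?_⟩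
      change e.symm (k (e (e.symm x))) = e.symm (g x)
      rw [e.apply_symm_apply, hk]

theorem pg_di_congr (h₀ : BasePt K ℓ κf α θ) (hK : K.IsLS ℓ)
    (hunb : ∀ ν, ν < κf ν ∧ K.CategoricalIn (κf ν)) (hst : Stab K ℓ α (H287.thr κf))
    (hCm₁ : K.mem C₁) (hs₁ : Sat K θ C₁) (hCc₁ : #C₁ = Order.succ θ) (hCm₂ : K.mem C₂)
    (hs₂ : Sat K θ C₂) (hCc₂ : #C₂ = Order.succ θ)
    (h : (pg h₀ hK hunb hst hCm₂ hs₂ hCc₂).DI) :
    (pg h₀ hK hunb hst hCm₁ hs₁ hCc₁).DI :=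
  (PG.di_iff _).2 fun n => pg_din_congr h₀ hK hunb hst hCm₁ hs₁ hCc₁ hCm₂ hs₂ hCc₂
    ((PG.di_iff _).1 h n)

end Vale.Agent.P307.R2.H541
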